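import Vale.Agent.P216.H971Z.FibB

/-!
# P216-B7, Z10: (FX) in the frame `TrZ`
-/

set_option linter.all false

open Set BoundedContinuousFunction

namespace Vale.Agent.P216.H971Z.TrZ

open Vale.Agent.P216.Sl Vale.Agent.P216.PS Vale.Agent.P216.B7 Vale.Agent.P216.E2L
open Vale.Agent.P216.MV337 Vale.Agent.P216.H923E
open Vale.Agent.P216.C337 hiding ex
open Vale.Agent.P216.H892 (FibN FibC nbh CtgC)

variable {M : Type} [MetricSpace M] {h : C(M, Circle)} [CompactSpace M]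
  {p₀ p' : M × ℝ} {A : Set (M × ℝ)} {ρ R ℓ₀ ℓ r0 t : ℝ} {c : M × ℝ → ℝ → M}

/-- **(FX)** -/
theorem fx (T : TrZ h p₀ p' A ρ R ℓ₀ ℓ r0 c) (ht : 0 < t) (hb : p₀ ∈ A) : ∀ r > 0, ∃ δ > 0,
    CtgC (PZ h p₀ p' (t + (R + ℓ + (R + ℓ)))) (PZ h p₀ p' t) δ r id
      fun v => phZ p' R ℓ c p₀ t (v, p₀.2) := by
  have hm : 0 ≤ R + ℓ := T.tr.m_nonneg
  have e0 := uh_shift (I := Unit) (D := fun _ => {p₀.1}) (g := fun _ : M => p'.1) (hgc _) hm ht.le
  simp only [XL_singleton] at e0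
  have e1 : UH (fun _ : Unit => PZ h p₀ p' t) (fun _ => PZ h p₀ p' (t + (R + ℓ + (R + ℓ))))
      (fun _ => id) fun _ w => cg (fun _ : M => p'.1) (R + ℓ) t (fun _ => w 0) w :=
    UH.refine' e0 (fun _ w hw => hw.1) (fun _ => pcu_PZ T.hp)
      fun _ w hw => PZ_mono (by linarith) hw
  have e2 : UH (fun _ : Unit => PZ h p₀ p' t) (fun _ => PZ h p₀ p' (t + (R + ℓ + (R + ℓ))))
      (fun _ => id) fun _ v => phZ p' R ℓ c p₀ t (v, p₀.2) := by
    refine e1.congr (fun _ _ _ => rfl) fun _ w hw => ?_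
    have h0 : w 0 = p₀.1 := eq_left hw.1 le_rfl
    show cg (fun _ : M => p'.1) (R + ℓ) t (fun _ => w 0) w =
      cg (fun _ : M => p'.1) (R + ℓ) t (pF R p₀.1 (c p₀) (w 0)) w
    congr 1
    have e : pF R p₀.1 (c p₀) p₀.1 = fun _ => p₀.1 := by
      funext u
      show catf R (sg R p₀.1 p₀.1) (c p₀) u = p₀.1
      rw [T.base hb, sg_self]
      unfold catf
      split_ifs <;> rfl
    rw [h0, e]
  intro r hr
  obtain ⟨δ, hδ, h4⟩ := H892.UH.ctgC e2 r hr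
  exact ⟨δ, hδ, h4 ()⟩

end Vale.Agent.P216.H971Z.TrZ
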